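import Vale.Agent.P251.H235.CobarDefs
import Mathlib.CategoryTheory.Triangulated.Yoneda

/-!
If the cohomology of the cobar complex of `E` vanishes in degrees `> m`, then so does the
`E₂`-page of the Adams spectral sequence.
-/

set_option linter.unusedSectionVars false

open CategoryTheory MonoidalCategory Limits Pretriangulated MonObj

universe v u

namespace Vale.Agent.P251.H235

open Vale.Agent.P251.H603

section Monoidal

variable {D : Type u} [Category.{v} D] [Preadditive D] [MonoidalCategory D]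
  [MonoidalPreadditive D] (E : D) [MonObj E]

@[reassoc]
lemma unitMap_naturality {X Y : D} (f : X ⟶ Y) :
    unitMap E X ≫ (f ▷ E) = f ≫ unitMap E Y := by
  simp [unitMap, whisker_exchange]

/-- The multiplication `(X ⊗ E) ⊗ E ⟶ X ⊗ E`. -/
def mulMap (X : D) : (X ⊗ E) ⊗ E ⟶ X ⊗ E := (α_ X E E).hom ≫ (X ◁ μ[E])

@[reassoc]
lemma unitMap_mulMap (X : D) : unitMap E (X ⊗ E) ≫ mulMap E X = 𝟙 _ := by
  have h1 : (X ⊗ E) ◁ η[E] ≫ (α_ X E E).hom = (α_ X E (𝟙_ D)).hom ≫ X ◁ E ◁ η[E] := by simp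
  simp only [unitMap, mulMap, Category.assoc]
  rw [reassoc_of% h1, ← MonoidalCategory.whiskerLeft_comp, MonObj.mul_one]
  simp

@[reassoc]
lemma unitMap_whisker_mulMap (X : D) : (unitMap E X ▷ E) ≫ mulMap E X = 𝟙 _ := by
  simp only [unitMap, mulMap, comp_whiskerRight, Category.assoc]
  have h1 : (X ◁ η[E]) ▷ E ≫ (α_ X E E).hom = (α_ X (𝟙_ D) E).hom ≫ X ◁ (η[E] ▷ E) := by simp
  rw [reassoc_of% h1, ← MonoidalCategory.whiskerLeft_comp, MonObj.one_mul]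
  simp

/-- The map of augmented cobar complexes induced by `f : X ⟶ Y`. -/
def cobarMap {X Y : D} (f : X ⟶ Y) : (s : ℕ) → (cobarObj E X s ⟶ cobarObj E Y s)
  | 0 => f
  | s + 1 => cobarMap f s ▷ E

lemma cobarStep_comm {A B : D} (d : A ⟶ A ⊗ E) (e : B ⟶ B ⊗ E) (f : A ⟶ B)
    (h : d ≫ (f ▷ E) = f ≫ e) :
    cobarStep E d ≫ ((f ▷ E) ▷ E) = (f ▷ E) ≫ cobarStep E e := by
  rw [cobarStep, cobarStep, Preadditive.sub_comp, Preadditive.comp_sub, unitMap_naturality,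
    ← comp_whiskerRight, h, comp_whiskerRight]

lemma cobarMap_comm {X Y : D} (f : X ⟶ Y) (s : ℕ) :
    cobarD E X s ≫ (cobarMap E f s ▷ E) = cobarMap E f s ≫ cobarD E Y s := by
  induction s with
  | zero => exact unitMap_naturality E f
  | succ s ih => exact cobarStep_comm E _ _ _ ih

/-- The extra degeneracy on the cobar complex of `X ⊗ E`. -/
def extra (X : D) : (s : ℕ) → (cobarObj E (X ⊗ E) s ⊗ E ⟶ cobarObj E (X ⊗ E) s)
  | 0 => mulMap E X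
  | s + 1 => extra X s ▷ E

lemma cobarStep_extra {A : D} (d : A ⟶ A ⊗ E) (h : A ⊗ E ⟶ A) (ε : ℤ)
    (H : cobarStep E d ≫ (h ▷ E) = h ≫ d + ε • 𝟙 (A ⊗ E)) :
    cobarStep E (cobarStep E d) ≫ ((h ▷ E) ▷ E) =
      (h ▷ E) ≫ cobarStep E d + (-ε) • 𝟙 ((A ⊗ E) ⊗ E) := by
  have h1 : (ε • 𝟙 (A ⊗ E)) ▷ E = ε • 𝟙 ((A ⊗ E) ⊗ E) := by
    have h0 : (tensorRight E).map (ε • 𝟙 (A ⊗ E)) = ε • (tensorRight E).map (𝟙 (A ⊗ E)) :=
      Functor.map_zsmul _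
    rw [CategoryTheory.Functor.map_id] at h0
    exact h0
  have h2 : cobarStep E (cobarStep E d) =
      unitMap E ((A ⊗ E) ⊗ E) - (cobarStep E d ▷ E) := rfl
  have h3 : cobarStep E d = unitMap E (A ⊗ E) - (d ▷ E) := rfl
  rw [h2, Preadditive.sub_comp, unitMap_naturality, ← comp_whiskerRight, H,
    MonoidalPreadditive.add_whiskerRight, comp_whiskerRight, h1, h3, Preadditive.comp_sub,
    neg_smul]
  abel

lemma cobarD_extra (X : D) (s : ℕ) :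
    cobarStep E (cobarD E (X ⊗ E) s) ≫ (extra E X s ▷ E) =
      extra E X s ≫ cobarD E (X ⊗ E) s + ((-1 : ℤ) ^ (s + 1)) • 𝟙 _ := by
  induction s with
  | zero =>
    have h1 : cobarStep E (unitMap E (X ⊗ E)) ≫ (mulMap E X ▷ E) =
        mulMap E X ≫ unitMap E (X ⊗ E) + (-1 : ℤ) • 𝟙 _ := by
      rw [cobarStep, Preadditive.sub_comp, unitMap_naturality, ← comp_whiskerRight,
        unitMap_mulMap]
      simp [sub_eq_add_neg]
    rw [zero_add, pow_one]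
    exact h1
  | succ s ih =>
    have h := cobarStep_extra E _ _ _ ih
    rw [pow_succ (-1 : ℤ) (s + 1), mul_neg_one]
    exact h

/-- The augmented cobar complex of `X ⊗ E` is exact. -/
lemma cobar_exact_tensor (X : D) (s : ℕ) {W : D} (y : W ⟶ cobarObj E (X ⊗ E) s ⊗ E)
    (hy : y ≫ cobarStep E (cobarD E (X ⊗ E) s) = 0) :
    ∃ w : W ⟶ cobarObj E (X ⊗ E) s, w ≫ cobarD E (X ⊗ E) s = y := by
  have h : y ≫ cobarStep E (cobarD E (X ⊗ E) s) ≫ (extra E X s ▷ E) =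
      y ≫ (extra E X s ≫ cobarD E (X ⊗ E) s + ((-1 : ℤ) ^ (s + 1)) • 𝟙 _) := by
    rw [cobarD_extra]
  rw [Preadditive.comp_add, reassoc_of% hy, zero_comp] at h
  rcases neg_one_pow_eq_or ℤ (s + 1) with h' | h'
  · rw [h', one_smul, Category.comp_id] at h
    refine ⟨-(y ≫ extra E X s), ?_⟩
    rw [Preadditive.neg_comp, Category.assoc]
    exact neg_eq_of_add_eq_zero_right h.symm
  · rw [h', neg_smul, one_smul, Preadditive.comp_neg, Category.comp_id] at h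
    refine ⟨y ≫ extra E X s, ?_⟩
    rw [Category.assoc]
    exact (sub_eq_zero.mp (by rw [sub_eq_add_neg]; exact h.symm))

end Monoidal

section Monoidal2

variable {D : Type u} [Category.{v} D] [Preadditive D] [MonoidalCategory D]
  [MonoidalPreadditive D] (E : D) [MonObj E]

lemma cobarD_comp (X : D) (s : ℕ) : cobarD E X s ≫ cobarStep E (cobarD E X s) = 0 := by
  induction s with
  | zero =>
    change unitMap E X ≫ (unitMap E (X ⊗ E) - (unitMap E X ▷ E)) = 0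
    rw [Preadditive.comp_sub, unitMap_naturality, sub_self]
  | succ s ih =>
    change cobarStep E (cobarD E X s) ≫
      (unitMap E ((cobarObj E X s ⊗ E) ⊗ E) - (cobarStep E (cobarD E X s) ▷ E)) = 0
    have h : cobarStep E (cobarD E X s) ≫ unitMap E ((cobarObj E X s ⊗ E) ⊗ E) =
        cobarStep E (cobarD E X s) ≫ (cobarStep E (cobarD E X s) ▷ E) := by
      rw [← unitMap_naturality]
      have h3 : cobarStep E (cobarD E X s) =
        unitMap E (cobarObj E X s ⊗ E) - (cobarD E X s ▷ E) := rfl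
      conv_rhs => rw [h3, Preadditive.sub_comp, ← comp_whiskerRight]
      rw [← h3, ih]
      simp
    rw [Preadditive.comp_sub, h, sub_self]

lemma exists_retraction (X : D) (s : ℕ) :
    ∃ r : cobarObj E (X ⊗ E) s ⊗ E ⟶ cobarObj E X s ⊗ E,
      (cobarMap E (unitMap E X) s ▷ E) ≫ r = 𝟙 _ := by
  induction s with
  | zero => exact ⟨mulMap E X, unitMap_whisker_mulMap E X⟩
  | succ s ih =>
    obtain ⟨r, hr⟩ := ih
    refine ⟨r ▷ E, ?_⟩
    change ((cobarMap E (unitMap E X) s ▷ E) ▷ E) ≫ (r ▷ E) = 𝟙 _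
    rw [← comp_whiskerRight, hr, id_whiskerRight]

end Monoidal2

section Triangulated

variable {D : Type u} [Category.{v} D] [Preadditive D] [HasZeroObject D]
    [HasShift D ℤ] [∀ n : ℤ, (shiftFunctor D n).Additive] [Pretriangulated D]
    [MonoidalCategory D] [BraidedCategory D] [TensorTriangulated D]

/-- `f` and `g` are two consecutive maps of a distinguished triangle. -/
def Consec {A B C : D} (f : A ⟶ B) (g : B ⟶ C) : Prop :=
  ∃ h : C ⟶ A⟦(1 : ℤ)⟧, Triangle.mk f g h ∈ distTriang D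

lemma Consec.comp {A B C : D} {f : A ⟶ B} {g : B ⟶ C} (h : Consec f g) : f ≫ g = 0 := by
  obtain ⟨h, hT⟩ := h
  exact comp_distTriang_mor_zero₁₂ _ hT

lemma Consec.exact {A B C : D} {f : A ⟶ B} {g : B ⟶ C} (h : Consec f g) {W : D} (y : W ⟶ B)
    (hy : y ≫ g = 0) : ∃ x : W ⟶ A, x ≫ f = y := by
  obtain ⟨h, hT⟩ := h
  obtain ⟨x, hx⟩ := Triangle.coyoneda_exact₂ _ hT y hy
  exact ⟨x, hx.symm⟩

lemma Consec.lift {A B C : D} {f : A ⟶ B} {g : B ⟶ C} (h : Consec f g) (r : B ⟶ A)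
    (hr : f ≫ r = 𝟙 A) {W : D} (z : W ⟶ C) : ∃ y : W ⟶ B, y ≫ g = z := by
  obtain ⟨h, hT⟩ := h
  have h1 : h ≫ f⟦(1 : ℤ)⟧' = 0 := comp_distTriang_mor_zero₃₁ _ hT
  have h2 : h = 0 := by
    have h3 : h ≫ f⟦(1 : ℤ)⟧' ≫ r⟦(1 : ℤ)⟧' = 0 := by rw [reassoc_of% h1, zero_comp]
    rwa [← Functor.map_comp, hr, CategoryTheory.Functor.map_id, Category.comp_id] at h3
  obtain ⟨x, hx⟩ := Triangle.coyoneda_exact₃ _ hT z (by
    change z ≫ h = 0
    rw [h2, comp_zero])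
  exact ⟨x, hx.symm⟩

lemma Consec.whiskerRight {A B C : D} {f : A ⟶ B} {g : B ⟶ C} (h : Consec f g) (E : D) :
    Consec (f ▷ E) (g ▷ E) := by
  obtain ⟨h, hT⟩ := h
  have hT' := TensorTriangulated.distinguished E _ hT
  refine ⟨(β_ C E).hom ≫ (E ◁ h) ≫ (TensorTriangulated.shiftIso E A).hom ≫
    ((β_ A E).inv)⟦(1 : ℤ)⟧', ?_⟩
  refine isomorphic_distinguished _ hT' _ (Triangle.isoMk _ _ (β_ A E) (β_ B E) (β_ C E) ?_ ?_ ?_)
  · exact BraidedCategory.braiding_naturality_left f E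
  · exact BraidedCategory.braiding_naturality_left g E
  · change ((β_ C E).hom ≫ (E ◁ h) ≫ (TensorTriangulated.shiftIso E A).hom ≫
      ((β_ A E).inv)⟦(1 : ℤ)⟧') ≫ ((β_ A E).hom)⟦(1 : ℤ)⟧' =
        (β_ C E).hom ≫ (E ◁ h) ≫ (TensorTriangulated.shiftIso E A).hom
    simp only [Category.assoc, ← Functor.map_comp, Iso.inv_hom_id, CategoryTheory.Functor.map_id,
      Category.comp_id]

lemma Consec.cobarMap (E : D) [MonObj E] {A B C : D} {f : A ⟶ B} {g : B ⟶ C} (h : Consec f g)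
    (s : ℕ) : Consec (cobarMap E f s) (cobarMap E g s) := by
  induction s with
  | zero => exact h
  | succ s ih => exact ih.whiskerRight E

/-- Exactness of the augmented cobar complex for maps from one object `W`. -/
def Ex (E X : D) [MonObj E] (s : ℕ) (W : D) : Prop :=
  ∀ y : W ⟶ cobarObj E X s ⊗ E, y ≫ cobarStep E (cobarD E X s) = 0 →
    ∃ w : W ⟶ cobarObj E X s, w ≫ cobarD E X s = y

lemma Ex.of_iso {E X : D} [MonObj E] {s : ℕ} {W W' : D} (h : Ex E X s W) (e : W' ≅ W) :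
    Ex E X s W' := by
  intro y hy
  obtain ⟨w, hw⟩ := h (e.inv ≫ y) (by rw [Category.assoc, hy, comp_zero])
  exact ⟨e.hom ≫ w, by rw [Category.assoc, hw, Iso.hom_inv_id_assoc]⟩

/-- Dimension shifting. -/
lemma dimension_shift (E : D) [MonObj E] {X Z : D} (g : X ⊗ E ⟶ Z) (hg : Consec (unitMap E X) g)
    (s : ℕ) {W : D} (h : Ex E X (s + 1) W) (z : W ⟶ cobarObj E Z s ⊗ E)
    (hz : z ≫ cobarStep E (cobarD E Z s) = 0) :
    ∃ w : W ⟶ cobarObj E (X ⊗ E) s, (w ≫ cobarMap E g s) ≫ cobarD E Z s = z := by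
  obtain ⟨r, hr⟩ := exists_retraction E X s
  have hc := (hg.cobarMap E s).whiskerRight E
  have hcc := hc.whiskerRight E
  obtain ⟨z', hz'⟩ := hc.lift r hr z
  have h1 : cobarStep E (cobarD E (X ⊗ E) s) ≫ ((cobarMap E g s ▷ E) ▷ E) =
      (cobarMap E g s ▷ E) ≫ cobarStep E (cobarD E Z s) :=
    cobarMap_comm E g (s + 1)
  have h2 : cobarStep E (cobarD E X s) ≫ ((cobarMap E (unitMap E X) s ▷ E) ▷ E) =
      (cobarMap E (unitMap E X) s ▷ E) ≫ cobarStep E (cobarD E (X ⊗ E) s) :=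
    cobarMap_comm E (unitMap E X) (s + 1)
  have h3 : cobarStep E (cobarStep E (cobarD E X s)) ≫
      (((cobarMap E (unitMap E X) s ▷ E) ▷ E) ▷ E) =
      ((cobarMap E (unitMap E X) s ▷ E) ▷ E) ≫
        cobarStep E (cobarStep E (cobarD E (X ⊗ E) s)) :=
    cobarMap_comm E (unitMap E X) (s + 2)
  obtain ⟨u, hu⟩ := hcc.exact (z' ≫ cobarStep E (cobarD E (X ⊗ E) s)) (by
    rw [Category.assoc, h1, reassoc_of% hz', hz])
  have hu0 : u ≫ cobarStep E (cobarStep E (cobarD E X s)) = 0 := by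
    have h4 : (u ≫ cobarStep E (cobarStep E (cobarD E X s))) ≫
        (((cobarMap E (unitMap E X) s ▷ E) ▷ E) ▷ E) = 0 := by
      rw [Category.assoc, h3, reassoc_of% hu]
      have h5 : cobarStep E (cobarD E (X ⊗ E) s) ≫
          cobarStep E (cobarStep E (cobarD E (X ⊗ E) s)) = 0 := cobarD_comp E (X ⊗ E) (s + 1)
      rw [h5, comp_zero]
    have h6 : (((cobarMap E (unitMap E X) s ▷ E) ▷ E) ▷ E) ≫ ((r ▷ E) ▷ E) = 𝟙 _ := by
      rw [← comp_whiskerRight, ← comp_whiskerRight, hr, id_whiskerRight, id_whiskerRight]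
    rw [← Category.comp_id (u ≫ _), ← h6, ← Category.assoc, h4, zero_comp]
  obtain ⟨v, hv'⟩ : ∃ v : W ⟶ cobarObj E X s ⊗ E, v ≫ cobarStep E (cobarD E X s) = u := h u hu0
  obtain ⟨w, hw⟩ := cobar_exact_tensor E X s
    (z' - v ≫ (cobarMap E (unitMap E X) s ▷ E)) (by
      rw [Preadditive.sub_comp, Category.assoc, ← h2, reassoc_of% hv', hu, sub_self])
  refine ⟨w, ?_⟩
  rw [Category.assoc, ← cobarMap_comm, reassoc_of% hw, Preadditive.sub_comp, Category.assoc,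
    hc.comp, comp_zero, sub_zero, hz']

/-- `(X⟦1⟧) ⊗ E ≅ (X ⊗ E)⟦1⟧`. -/
def sigma (E X : D) : (X⟦(1 : ℤ)⟧) ⊗ E ≅ (X ⊗ E)⟦(1 : ℤ)⟧ :=
  β_ (X⟦(1 : ℤ)⟧) E ≪≫ TensorTriangulated.shiftIso E X ≪≫
    (shiftFunctor D (1 : ℤ)).mapIso (β_ X E).symm

lemma sigma_naturality (E : D) {X Y : D} (f : X ⟶ Y) :
    (f⟦(1 : ℤ)⟧' ▷ E) ≫ (sigma E Y).hom = (sigma E X).hom ≫ (f ▷ E)⟦(1 : ℤ)⟧' := by
  simp only [sigma, Iso.trans_hom, Functor.mapIso_hom, Iso.symm_hom, Category.assoc]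
  rw [BraidedCategory.braiding_naturality_left_assoc]
  have h1 := TensorTriangulated.shiftIso_natural_right E f
  have h2 : (E ◁ f) ≫ (β_ Y E).inv = (β_ X E).inv ≫ (f ▷ E) := by
    rw [Iso.comp_inv_eq, Category.assoc, BraidedCategory.braiding_naturality_left,
      Iso.inv_hom_id_assoc]
  rw [reassoc_of% h1, ← Functor.map_comp, ← Functor.map_comp, h2]

/-- The compatibility of the isomorphism `X ⊗ ΣY ≅ Σ(X ⊗ Y)` with the unit object. -/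
def ShiftUnit (D : Type u) [Category.{v} D] [Preadditive D] [HasZeroObject D]
    [HasShift D ℤ] [∀ n : ℤ, (shiftFunctor D n).Additive] [Pretriangulated D]
    [MonoidalCategory D] [TensorTriangulated D] : Prop :=
  ∀ X : D, (TensorTriangulated.shiftIso (𝟙_ D) X).hom ≫ ((λ_ X).hom)⟦(1 : ℤ)⟧' =
    (λ_ (X⟦(1 : ℤ)⟧)).hom

lemma unitMap_sigma (hU : ShiftUnit D) (E X : D) [MonObj E] :
    unitMap E (X⟦(1 : ℤ)⟧) ≫ (sigma E X).hom = (unitMap E X)⟦(1 : ℤ)⟧' := by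
  have h1 : ∀ Y : D, unitMap E Y ≫ (β_ Y E).hom = (λ_ Y).inv ≫ (η[E] ▷ Y) := by
    intro Y
    rw [unitMap, Category.assoc, BraidedCategory.braiding_naturality_right, ← Category.assoc]
    congr 1
    rw [Iso.inv_comp_eq]
    exact braiding_tensorUnit_right Y
  have h2 := TensorTriangulated.shiftIso_natural_left η[E] X
  have h3 : (λ_ (X⟦(1 : ℤ)⟧)).inv ≫ (TensorTriangulated.shiftIso (𝟙_ D) X).hom =
      ((λ_ X).inv)⟦(1 : ℤ)⟧' := by
    rw [Iso.inv_comp_eq, ← hU X, Category.assoc, ← Functor.map_comp, Iso.hom_inv_id,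
      CategoryTheory.Functor.map_id, Category.comp_id]
  simp only [sigma, Iso.trans_hom, Functor.mapIso_hom, Iso.symm_hom]
  rw [reassoc_of% (h1 (X⟦(1 : ℤ)⟧)), reassoc_of% h2, reassoc_of% h3, ← Functor.map_comp,
    ← Functor.map_comp]
  congr 1
  rw [← Category.assoc, ← h1, Category.assoc, Iso.hom_inv_id, Category.comp_id]

/-- The cobar complex of `X⟦1⟧` is the shift of the cobar complex of `X`. -/
def tau (E X : D) [MonObj E] : (s : ℕ) → (cobarObj E (X⟦(1 : ℤ)⟧) s ≅ (cobarObj E X s)⟦(1 : ℤ)⟧)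
  | 0 => Iso.refl _
  | s + 1 => whiskerRightIso (tau E X s) E ≪≫ sigma E (cobarObj E X s)

lemma cobarStep_tau (hU : ShiftUnit D) (E : D) [MonObj E] {A A' : D} (t : A' ⟶ A⟦(1 : ℤ)⟧)
    (d : A ⟶ A ⊗ E) (d' : A' ⟶ A' ⊗ E)
    (h : d' ≫ (t ▷ E) ≫ (sigma E A).hom = t ≫ d⟦(1 : ℤ)⟧') :
    cobarStep E d' ≫ (((t ▷ E) ≫ (sigma E A).hom) ▷ E) ≫ (sigma E (A ⊗ E)).hom =
      ((t ▷ E) ≫ (sigma E A).hom) ≫ (cobarStep E d)⟦(1 : ℤ)⟧' := by
  have h1 : (cobarStep E d)⟦(1 : ℤ)⟧' = (unitMap E (A ⊗ E))⟦(1 : ℤ)⟧' - (d ▷ E)⟦(1 : ℤ)⟧' :=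
    Functor.map_sub _
  rw [h1, cobarStep, Preadditive.sub_comp, Preadditive.comp_sub, unitMap_naturality_assoc,
    unitMap_sigma hU, ← comp_whiskerRight_assoc, h, comp_whiskerRight_assoc, sigma_naturality,
    Category.assoc, Category.assoc]

lemma tau_comm (hU : ShiftUnit D) (E X : D) [MonObj E] (s : ℕ) :
    cobarD E (X⟦(1 : ℤ)⟧) s ≫ ((tau E X s).hom ▷ E) ≫ (sigma E (cobarObj E X s)).hom =
      (tau E X s).hom ≫ (cobarD E X s)⟦(1 : ℤ)⟧' := by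
  induction s with
  | zero =>
    change unitMap E (X⟦(1 : ℤ)⟧) ≫ (𝟙 (X⟦(1 : ℤ)⟧) ▷ E) ≫ (sigma E X).hom =
      𝟙 _ ≫ (unitMap E X)⟦(1 : ℤ)⟧'
    rw [id_whiskerRight, Category.id_comp, Category.id_comp, unitMap_sigma hU]
  | succ s ih => exact cobarStep_tau hU E _ _ _ ih

lemma Ex.unshift (hU : ShiftUnit D) {E X : D} [MonObj E] {s : ℕ} {W : D}
    (h : Ex E (X⟦(1 : ℤ)⟧) s (W⟦(1 : ℤ)⟧)) : Ex E X s W := by
  intro g hg
  have h1 := tau_comm hU E X s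
  have h2 := cobarStep_tau hU E _ _ _ h1
  let t' : cobarObj E (X⟦(1 : ℤ)⟧) s ⊗ E ≅ (cobarObj E X s ⊗ E)⟦(1 : ℤ)⟧ :=
    whiskerRightIso (tau E X s) E ≪≫ sigma E (cobarObj E X s)
  let t'' : (cobarObj E (X⟦(1 : ℤ)⟧) s ⊗ E) ⊗ E ≅ ((cobarObj E X s ⊗ E) ⊗ E)⟦(1 : ℤ)⟧ :=
    whiskerRightIso t' E ≪≫ sigma E (cobarObj E X s ⊗ E)
  have h1' : cobarD E (X⟦(1 : ℤ)⟧) s ≫ t'.hom = (tau E X s).hom ≫ (cobarD E X s)⟦(1 : ℤ)⟧' := h1
  have h2' : cobarStep E (cobarD E (X⟦(1 : ℤ)⟧) s) ≫ t''.hom =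
      t'.hom ≫ (cobarStep E (cobarD E X s))⟦(1 : ℤ)⟧' := h2
  obtain ⟨w, hw⟩ := h (g⟦(1 : ℤ)⟧' ≫ t'.inv) (by
    rw [← cancel_mono t''.hom, Category.assoc, Category.assoc, h2', Iso.inv_hom_id_assoc,
      ← Functor.map_comp, hg, Functor.map_zero, zero_comp])
  obtain ⟨v, hv⟩ := (shiftFunctor D (1 : ℤ)).map_surjective (w ≫ (tau E X s).hom)
  refine ⟨v, (shiftFunctor D (1 : ℤ)).map_injective ?_⟩
  rw [Functor.map_comp, hv, Category.assoc, ← h1', reassoc_of% hw, Iso.inv_hom_id,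
    Category.comp_id]

/-- The connecting map `X ⊗ E ⟶ (X ⊗ F)⟦1⟧`. -/
def conn {E F : D} (X : D) (δ : E ⟶ F⟦(1 : ℤ)⟧) : X ⊗ E ⟶ (X ⊗ F)⟦(1 : ℤ)⟧ :=
  (X ◁ δ) ≫ (TensorTriangulated.shiftIso X F).hom

variable {E F : D} [MonObj E] {i : F ⟶ 𝟙_ D} {δ : E ⟶ F⟦(1 : ℤ)⟧}

lemma consec_unitMap (hF : Triangle.mk i η[E] δ ∈ distTriang D) (X : D) :
    Consec (unitMap E X) (conn X δ) := by
  have h1 := rot_of_distTriang _ (TensorTriangulated.distinguished X _ hF)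
  refine ⟨(-(X ◁ i)⟦(1 : ℤ)⟧') ≫ ((ρ_ X).hom)⟦(1 : ℤ)⟧', ?_⟩
  refine isomorphic_distinguished _ h1 _
    (Triangle.isoMk _ _ (ρ_ X).symm (Iso.refl _) (Iso.refl _) ?_ ?_ ?_)
  · change unitMap E X ≫ 𝟙 _ = (ρ_ X).inv ≫ (X ◁ η[E])
    rw [Category.comp_id]
    rfl
  · change conn X δ ≫ 𝟙 _ = 𝟙 _ ≫ ((X ◁ δ) ≫ (TensorTriangulated.shiftIso X F).hom)
    rw [Category.comp_id, Category.id_comp]
    rfl
  · change ((-(X ◁ i)⟦(1 : ℤ)⟧') ≫ ((ρ_ X).hom)⟦(1 : ℤ)⟧') ≫ ((ρ_ X).inv)⟦(1 : ℤ)⟧' =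
      𝟙 _ ≫ (-(X ◁ i)⟦(1 : ℤ)⟧')
    rw [Category.assoc, ← Functor.map_comp, Iso.hom_inv_id, CategoryTheory.Functor.map_id,
      Category.comp_id, Category.id_comp]

lemma ex_tensor (hU : ShiftUnit D) (hF : Triangle.mk i η[E] δ ∈ distTriang D) {X : D} {s : ℕ}
    (h : ∀ t : ℤ, Ex E X (s + 1) ((𝟙_ D)⟦t⟧)) (t : ℤ) : Ex E (X ⊗ F) s ((𝟙_ D)⟦t⟧) := by
  apply Ex.unshift hU
  intro z hz
  obtain ⟨w, hw⟩ := dimension_shift E (conn X δ) (consec_unitMap hF X) s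
    ((h (t + 1)).of_iso ((shiftFunctorAdd D t 1).app (𝟙_ D)).symm) z hz
  exact ⟨w ≫ cobarMap E (conn X δ) s, hw⟩

lemma ex_tensorPow (hU : ShiftUnit D) (hF : Triangle.mk i η[E] δ ∈ distTriang D) (a s : ℕ)
    (h : ∀ t : ℤ, Ex E (𝟙_ D) (s + a) ((𝟙_ D)⟦t⟧)) (t : ℤ) :
    Ex E (tensorPow F a) s ((𝟙_ D)⟦t⟧) := by
  induction a generalizing s t with
  | zero => exact h t
  | succ a ih =>
    refine ex_tensor hU hF (X := tensorPow F a) (fun t' => ih (s + 1) (fun t'' => ?_) t') t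
    have e : s + 1 + a = s + (a + 1) := by ring
    rw [e]
    exact h t''

/-- If the cohomology of the cobar complex `π_* (E^{⊗(s+1)})` vanishes in all degrees `> m`, then
`E₂^{s,*} = 0` for all `s > m` in the `E`-based Adams spectral sequence of the unit object. -/
theorem adamsE₂Vanishes_of_cobarExact (hU : ShiftUnit D)
    (hF : Triangle.mk i η[E] δ ∈ distTriang D) (m : ℕ)
    (h : ∀ s, m < s → CobarExact E (𝟙_ D) s) (s : ℕ) (hs : m ≤ s) : AdamsE₂Vanishes δ s := by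
  intro t y hy
  -- the assumption in degree one for `F^{⊗ s}`
  have hX : ∀ t : ℤ, Ex E (tensorPow F s) 1 ((𝟙_ D)⟦t⟧) :=
    ex_tensorPow hU hF s 1 (fun t y hy => h (1 + s) (by omega) t y hy)
  have key : ∀ (X : D) (hX : ∀ t : ℤ, Ex E X 1 ((𝟙_ D)⟦t⟧)) {W' : D} (g : W' ⟶ (X ⊗ F) ⊗ E)
      (hg : g ≫ conn (X ⊗ F) δ ≫ (unitMap E ((X ⊗ F) ⊗ F))⟦(1 : ℤ)⟧' = 0)
      (e : (𝟙_ D)⟦t⟧ ≅ W'⟦(1 : ℤ)⟧),
      ∃ w : (𝟙_ D)⟦t⟧ ⟶ X ⊗ E, w ≫ conn X δ ≫ (unitMap E (X ⊗ F))⟦(1 : ℤ)⟧' =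
        e.hom ≫ g⟦(1 : ℤ)⟧' := by
    intro X hX W' g hg e
    have hcZ := consec_unitMap hF (X ⊗ F)
    have hc := hcZ.whiskerRight E
    have h1 : cobarStep E (unitMap E (X ⊗ F)) ≫ (conn (X ⊗ F) δ ▷ E) ≫
        (sigma E ((X ⊗ F) ⊗ F)).hom =
        conn (X ⊗ F) δ ≫ (unitMap E ((X ⊗ F) ⊗ F))⟦(1 : ℤ)⟧' := by
      rw [cobarStep, Preadditive.sub_comp, unitMap_naturality_assoc, unitMap_sigma hU]
      have h2 : (unitMap E (X ⊗ F) ▷ E) ≫ (conn (X ⊗ F) δ ▷ E) = 0 := hc.comp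
      rw [reassoc_of% h2, zero_comp, sub_zero]
    have h3 : g ≫ cobarStep E (unitMap E (X ⊗ F)) = 0 := by
      obtain ⟨u, hu⟩ := hc.exact (g ≫ cobarStep E (unitMap E (X ⊗ F))) (by
        rw [← cancel_mono (sigma E ((X ⊗ F) ⊗ F)).hom, Category.assoc, Category.assoc, h1, hg,
          zero_comp])
      have h4 : u = 0 := by
        rw [← Category.comp_id u, ← unitMap_whisker_mulMap E (X ⊗ F), reassoc_of% hu, cobarStep,
          Preadditive.sub_comp, unitMap_mulMap, unitMap_whisker_mulMap, sub_self, comp_zero]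
      rw [← hu, h4, zero_comp]
    have h5 := cobarStep_tau hU E (𝟙 ((X ⊗ F)⟦(1 : ℤ)⟧)) (unitMap E (X ⊗ F))
      (unitMap E ((X ⊗ F)⟦(1 : ℤ)⟧)) (by
        rw [id_whiskerRight, Category.id_comp, Category.id_comp, unitMap_sigma hU])
    rw [id_whiskerRight, Category.id_comp] at h5
    obtain ⟨w, hw'⟩ : ∃ w : (𝟙_ D)⟦t⟧ ⟶ X ⊗ E,
        (w ≫ conn X δ) ≫ unitMap E ((X ⊗ F)⟦(1 : ℤ)⟧) =
          e.hom ≫ g⟦(1 : ℤ)⟧' ≫ (sigma E (X ⊗ F)).inv :=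
      dimension_shift E (conn X δ) (consec_unitMap hF X) 0 (hX t)
      ((e.hom ≫ g⟦(1 : ℤ)⟧' ≫ (sigma E (X ⊗ F)).inv : (𝟙_ D)⟦t⟧ ⟶ (X ⊗ F)⟦(1 : ℤ)⟧ ⊗ E)) (by
        change (e.hom ≫ g⟦(1 : ℤ)⟧' ≫ (sigma E (X ⊗ F)).inv) ≫
          cobarStep E (unitMap E ((X ⊗ F)⟦(1 : ℤ)⟧)) = 0
        rw [← cancel_mono (((sigma E (X ⊗ F)).hom ▷ E) ≫ (sigma E ((X ⊗ F) ⊗ E)).hom)]
        simp only [Category.assoc]
        rw [h5, Iso.inv_hom_id_assoc, ← Functor.map_comp, h3, Functor.map_zero, comp_zero,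
          zero_comp])
    refine ⟨w, ?_⟩
    rw [← unitMap_sigma hU, ← Category.assoc, ← Category.assoc, hw']
    simp only [Category.assoc, Iso.inv_hom_id, Category.comp_id]
  obtain ⟨g, hg⟩ := (shiftFunctor D (1 : ℤ)).map_surjective
    (((shiftFunctorAdd' D (t - 1) 1 t (by ring)).app (𝟙_ D)).inv ≫ y)
  obtain ⟨w, hw⟩ := key (tensorPow F s) hX (W' := (𝟙_ D)⟦t - 1⟧) g (by
    apply (shiftFunctor D (1 : ℤ)).map_injective
    refine (Functor.map_comp (shiftFunctor D (1 : ℤ)) g (adamsDifferential δ (s + 1))).trans ?_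
    rw [hg, Category.assoc, hy, comp_zero, Functor.map_zero]
    rfl) ((shiftFunctorAdd' D (t - 1) 1 t (by ring)).app (𝟙_ D))
  refine ⟨w, ?_⟩
  refine hw.trans ((congrArg (fun f => _ ≫ f) hg).trans ?_)
  exact Iso.hom_inv_id_assoc _ y

end Triangulated

end Vale.Agent.P251.H235
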