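import Vale.Agent.P251.H603.Defs

/-!
The cobar complex of a monoid object.
-/

open CategoryTheory MonoidalCategory Limits Pretriangulated MonObj

universe v u

namespace Vale.Agent.P251.H235

variable {D : Type u} [Category.{v} D] [Preadditive D] [MonoidalCategory D]

/-- The objects `X ⊗ E ⊗ ⋯ ⊗ E` (with `s` factors `E`) of the augmented cobar complex of `X`. -/
def cobarObj (E X : D) : ℕ → D
  | 0 => X
  | s + 1 => cobarObj E X s ⊗ E

/-- The map `X ⟶ X ⊗ E` given by the unit of `E`. -/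
def unitMap (E X : D) [MonObj E] : X ⟶ X ⊗ E := (ρ_ X).inv ≫ (X ◁ η[E])

/-- From one differential of the cobar complex to the next one. -/
def cobarStep (E : D) [MonObj E] {A : D} (d : A ⟶ A ⊗ E) : A ⊗ E ⟶ (A ⊗ E) ⊗ E :=
  unitMap E (A ⊗ E) - (d ▷ E)

/-- The differential of the augmented cobar complex `X ⟶ X ⊗ E ⟶ X ⊗ E ⊗ E ⟶ ⋯`: the alternating
sum of the maps inserting the unit of `E`, starting with the insertion at the right end. -/
def cobarD (E X : D) [MonObj E] : (s : ℕ) → (cobarObj E X s ⟶ cobarObj E X s ⊗ E)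
  | 0 => unitMap E X
  | s + 1 => cobarStep E (cobarD E X s)

/-- The cohomology of the cobar complex `π_* (X ⊗ E) ⟶ π_* (X ⊗ E ⊗ E) ⟶ ⋯` vanishes in
degree `s` (for `s ≥ 1`), where `π_t Y` is the group of morphisms `𝟙⟦t⟧ ⟶ Y`. -/
def CobarExact [HasShift D ℤ] (E X : D) [MonObj E] (s : ℕ) : Prop :=
  ∀ (t : ℤ) (y : (𝟙_ D)⟦t⟧ ⟶ cobarObj E X (s + 1)), y ≫ cobarD E X (s + 1) = 0 →
    ∃ w : (𝟙_ D)⟦t⟧ ⟶ cobarObj E X s, w ≫ cobarD E X s = y

end Vale.Agent.P251.H235
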