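import Vale.Agent.P251.H603.V3.CobDefs
import Mathlib.CategoryTheory.Triangulated.Yoneda
import Mathlib.Tactic.Abel
import Mathlib.Tactic.Ring

/-!
If the cohomology of the cobar complex of `E` vanishes in degrees `> m`, then so does the
`E₂`-page of the Adams spectral sequence.
-/

set_option linter.unusedSectionVars false

open CategoryTheory MonoidalCategory Limits Pretriangulated MonObj

universe v u

namespace Vale.Agent.P251.V3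

section Monoidal

variable {D : Type u} [Category.{v} D] [Preadditive D] [MonoidalCategory D]
  [MonoidalPreadditive D] (E : D) [MonObj E]

@[reassoc]
lemma unitL_naturality {X Y : D} (f : X ⟶ Y) :
    unitL E X ≫ (E ◁ f) = f ≫ unitL E Y := by
  simp only [unitL, Category.assoc]
  rw [← whisker_exchange]
  simp

/-- The multiplication `E ⊗ (E ⊗ X) ⟶ E ⊗ X`. -/
def mulL (X : D) : E ⊗ (E ⊗ X) ⟶ E ⊗ X := (α_ E E X).inv ≫ (μ[E] ▷ X)

@[reassoc]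
lemma unitL_mulL (X : D) : unitL E (E ⊗ X) ≫ mulL E X = 𝟙 _ := by
  have h1 : (η[E] ▷ (E ⊗ X)) ≫ (α_ E E X).inv = (α_ (𝟙_ D) E X).inv ≫ ((η[E] ▷ E) ▷ X) := by simp
  simp only [unitL, mulL, Category.assoc]
  rw [reassoc_of% h1, ← comp_whiskerRight, MonObj.one_mul]
  simp

@[reassoc]
lemma whisker_unitL_mulL (X : D) : (E ◁ unitL E X) ≫ mulL E X = 𝟙 _ := by
  simp only [unitL, mulL, MonoidalCategory.whiskerLeft_comp, Category.assoc]
  have h1 : (E ◁ (η[E] ▷ X)) ≫ (α_ E E X).inv = (α_ E (𝟙_ D) X).inv ≫ ((E ◁ η[E]) ▷ X) := by simp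
  rw [reassoc_of% h1, ← comp_whiskerRight, MonObj.mul_one]
  simp

/-- From one differential of the cobar complex to the next one. -/
def stepL {A : D} (d : A ⟶ E ⊗ A) : E ⊗ A ⟶ E ⊗ (E ⊗ A) := unitL E (E ⊗ A) - E ◁ d

/-- The map of augmented cobar complexes induced by `f : X ⟶ Y`. -/
def cobMap {X Y : D} (f : X ⟶ Y) : (s : ℕ) → (tpow E X s ⟶ tpow E Y s)
  | 0 => f
  | s + 1 => E ◁ cobMap f s

lemma stepL_comm {A B : D} (d : A ⟶ E ⊗ A) (e : B ⟶ E ⊗ B) (f : A ⟶ B)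
    (h : d ≫ (E ◁ f) = f ≫ e) :
    stepL E d ≫ (E ◁ (E ◁ f)) = (E ◁ f) ≫ stepL E e := by
  rw [stepL, stepL, Preadditive.sub_comp, Preadditive.comp_sub, unitL_naturality,
    ← MonoidalCategory.whiskerLeft_comp, h, MonoidalCategory.whiskerLeft_comp]

lemma cobMap_comm {X Y : D} (f : X ⟶ Y) (s : ℕ) :
    cobD E X s ≫ (E ◁ cobMap E f s) = cobMap E f s ≫ cobD E Y s := by
  induction s with
  | zero => exact unitL_naturality E f
  | succ s ih => exact stepL_comm E _ _ _ ih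

/-- The extra degeneracy on the cobar complex of `E ⊗ X`. -/
def extraL (X : D) : (s : ℕ) → (E ⊗ tpow E (E ⊗ X) s ⟶ tpow E (E ⊗ X) s)
  | 0 => mulL E X
  | s + 1 => E ◁ extraL X s

lemma stepL_extra {A : D} (d : A ⟶ E ⊗ A) (h : E ⊗ A ⟶ A) (ε : ℤ)
    (H : stepL E d ≫ (E ◁ h) = h ≫ d + ε • 𝟙 (E ⊗ A)) :
    stepL E (stepL E d) ≫ (E ◁ (E ◁ h)) =
      (E ◁ h) ≫ stepL E d + (-ε) • 𝟙 (E ⊗ (E ⊗ A)) := by
  have h1 : E ◁ (ε • 𝟙 (E ⊗ A)) = ε • 𝟙 (E ⊗ (E ⊗ A)) := by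
    have h0 : (tensorLeft E).map (ε • 𝟙 (E ⊗ A)) = ε • (tensorLeft E).map (𝟙 (E ⊗ A)) :=
      Functor.map_zsmul _
    rw [CategoryTheory.Functor.map_id] at h0
    exact h0
  have h2 : stepL E (stepL E d) = unitL E (E ⊗ (E ⊗ A)) - (E ◁ stepL E d) := rfl
  have h3 : stepL E d = unitL E (E ⊗ A) - (E ◁ d) := rfl
  rw [h2, Preadditive.sub_comp, unitL_naturality, ← MonoidalCategory.whiskerLeft_comp, H,
    MonoidalPreadditive.whiskerLeft_add, MonoidalCategory.whiskerLeft_comp, h1, h3,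
    Preadditive.comp_sub, neg_smul]
  abel

lemma cobD_extra (X : D) (s : ℕ) :
    stepL E (cobD E (E ⊗ X) s) ≫ (E ◁ extraL E X s) =
      extraL E X s ≫ cobD E (E ⊗ X) s + ((-1 : ℤ) ^ (s + 1)) • 𝟙 _ := by
  induction s with
  | zero =>
    have h1 : stepL E (unitL E (E ⊗ X)) ≫ (E ◁ mulL E X) =
        mulL E X ≫ unitL E (E ⊗ X) + (-1 : ℤ) • 𝟙 _ := by
      rw [stepL, Preadditive.sub_comp, unitL_naturality, ← MonoidalCategory.whiskerLeft_comp,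
        unitL_mulL]
      simp [sub_eq_add_neg]
    rw [zero_add, pow_one]
    exact h1
  | succ s ih =>
    have h := stepL_extra E _ _ _ ih
    rw [pow_succ (-1 : ℤ) (s + 1), mul_neg_one]
    exact h

/-- The augmented cobar complex of `E ⊗ X` is exact. -/
lemma cob_exact_tensor (X : D) (s : ℕ) {W : D} (y : W ⟶ E ⊗ tpow E (E ⊗ X) s)
    (hy : y ≫ stepL E (cobD E (E ⊗ X) s) = 0) :
    ∃ w : W ⟶ tpow E (E ⊗ X) s, w ≫ cobD E (E ⊗ X) s = y := by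
  have h : y ≫ stepL E (cobD E (E ⊗ X) s) ≫ (E ◁ extraL E X s) =
      y ≫ (extraL E X s ≫ cobD E (E ⊗ X) s + ((-1 : ℤ) ^ (s + 1)) • 𝟙 _) := by
    rw [cobD_extra]
  rw [Preadditive.comp_add, reassoc_of% hy, zero_comp] at h
  rcases neg_one_pow_eq_or ℤ (s + 1) with h' | h'
  · rw [h', one_smul, Category.comp_id] at h
    refine ⟨-(y ≫ extraL E X s), ?_⟩
    rw [Preadditive.neg_comp, Category.assoc]
    exact neg_eq_of_add_eq_zero_right h.symm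
  · rw [h', neg_smul, one_smul, Preadditive.comp_neg, Category.comp_id] at h
    refine ⟨y ≫ extraL E X s, ?_⟩
    rw [Category.assoc]
    exact (sub_eq_zero.mp (by rw [sub_eq_add_neg]; exact h.symm))

lemma cobD_comp (X : D) (s : ℕ) : cobD E X s ≫ stepL E (cobD E X s) = 0 := by
  induction s with
  | zero =>
    change unitL E X ≫ (unitL E (E ⊗ X) - (E ◁ unitL E X)) = 0
    rw [Preadditive.comp_sub, unitL_naturality, sub_self]
  | succ s ih =>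
    change stepL E (cobD E X s) ≫
      (unitL E (E ⊗ (E ⊗ tpow E X s)) - (E ◁ stepL E (cobD E X s))) = 0
    have h : stepL E (cobD E X s) ≫ unitL E (E ⊗ (E ⊗ tpow E X s)) =
        stepL E (cobD E X s) ≫ (E ◁ stepL E (cobD E X s)) := by
      rw [← unitL_naturality]
      have h3 : stepL E (cobD E X s) =
        unitL E (E ⊗ tpow E X s) - (E ◁ cobD E X s) := rfl
      conv_rhs => rw [h3, Preadditive.sub_comp, ← MonoidalCategory.whiskerLeft_comp]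
      rw [← h3, ih]
      simp
    rw [Preadditive.comp_sub, h, sub_self]

lemma exists_retractionL (X : D) (s : ℕ) :
    ∃ r : E ⊗ tpow E (E ⊗ X) s ⟶ E ⊗ tpow E X s,
      (E ◁ cobMap E (unitL E X) s) ≫ r = 𝟙 _ := by
  induction s with
  | zero => exact ⟨mulL E X, whisker_unitL_mulL E X⟩
  | succ s ih =>
    obtain ⟨r, hr⟩ := ih
    refine ⟨E ◁ r, ?_⟩
    change (E ◁ (E ◁ cobMap E (unitL E X) s)) ≫ (E ◁ r) = 𝟙 _
    rw [← MonoidalCategory.whiskerLeft_comp, hr, MonoidalCategory.whiskerLeft_id]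

end Monoidal

section Triangulated

variable {D : Type u} [Category.{v} D] [Preadditive D] [HasZeroObject D]
    [HasShift D ℤ] [∀ n : ℤ, (shiftFunctor D n).Additive] [Pretriangulated D]
    [MonoidalCategory D] [BraidedCategory D] [TensorTriangulated D]

/-- `f` and `g` are two consecutive maps of a distinguished triangle. -/
def Consec {A B C : D} (f : A ⟶ B) (g : B ⟶ C) : Prop :=
  ∃ h : C ⟶ A⟦(1 : ℤ)⟧, Triangle.mk f g h ∈ distTriang D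

lemma Consec.comp {A B C : D} {f : A ⟶ B} {g : B ⟶ C} (h : Consec f g) : f ≫ g = 0 := by
  obtain ⟨h, hT⟩ := h
  exact comp_distTriang_mor_zero₁₂ _ hT

lemma Consec.exact {A B C : D} {f : A ⟶ B} {g : B ⟶ C} (h : Consec f g) {W : D} (y : W ⟶ B)
    (hy : y ≫ g = 0) : ∃ x : W ⟶ A, x ≫ f = y := by
  obtain ⟨h, hT⟩ := h
  obtain ⟨x, hx⟩ := Triangle.coyoneda_exact₂ _ hT y hy
  exact ⟨x, hx.symm⟩

lemma Consec.lift {A B C : D} {f : A ⟶ B} {g : B ⟶ C} (h : Consec f g) (r : B ⟶ A)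
    (hr : f ≫ r = 𝟙 A) {W : D} (z : W ⟶ C) : ∃ y : W ⟶ B, y ≫ g = z := by
  obtain ⟨h, hT⟩ := h
  have h1 : h ≫ f⟦(1 : ℤ)⟧' = 0 := comp_distTriang_mor_zero₃₁ _ hT
  have h2 : h = 0 := by
    have h3 : h ≫ f⟦(1 : ℤ)⟧' ≫ r⟦(1 : ℤ)⟧' = 0 := by rw [reassoc_of% h1, zero_comp]
    rwa [← Functor.map_comp, hr, CategoryTheory.Functor.map_id, Category.comp_id] at h3
  obtain ⟨x, hx⟩ := Triangle.coyoneda_exact₃ _ hT z (by
    change z ≫ h = 0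
    rw [h2, comp_zero])
  exact ⟨x, hx.symm⟩

lemma Consec.whiskerLeft {A B C : D} {f : A ⟶ B} {g : B ⟶ C} (h : Consec f g) (E : D) :
    Consec (E ◁ f) (E ◁ g) := by
  obtain ⟨h, hT⟩ := h
  exact ⟨(E ◁ h) ≫ (TensorTriangulated.shiftIso E A).hom,
    TensorTriangulated.distinguished E _ hT⟩

lemma Consec.cobMap (E : D) [MonObj E] {A B C : D} {f : A ⟶ B} {g : B ⟶ C} (h : Consec f g)
    (s : ℕ) : Consec (cobMap E f s) (cobMap E g s) := by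
  induction s with
  | zero => exact h
  | succ s ih => exact ih.whiskerLeft E

lemma CobExact.of_iso {E X : D} [MonObj E] {s : ℕ} {W W' : D} (h : CobExact E X W s)
    (e : W' ≅ W) : CobExact E X W' s := by
  intro y hy
  have hy' : y ≫ stepL E (cobD E X s) = 0 := hy
  obtain ⟨w, hw⟩ := h (e.inv ≫ y) (by
    change (e.inv ≫ y) ≫ stepL E (cobD E X s) = 0
    rw [Category.assoc, hy', comp_zero])
  exact ⟨e.hom ≫ w, by rw [Category.assoc, hw, Iso.hom_inv_id_assoc]⟩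

/-- Dimension shifting. -/
lemma dimension_shiftL (E : D) [MonObj E] {X Z : D} (g : E ⊗ X ⟶ Z)
    (hg : Consec (unitL E X) g) (s : ℕ) {W : D} (h : CobExact E X W (s + 1))
    (z : W ⟶ E ⊗ tpow E Z s) (hz : z ≫ stepL E (cobD E Z s) = 0) :
    ∃ w : W ⟶ tpow E (E ⊗ X) s, (w ≫ cobMap E g s) ≫ cobD E Z s = z := by
  obtain ⟨r, hr⟩ := exists_retractionL E X s
  have hc := (hg.cobMap E s).whiskerLeft E
  have hcc := hc.whiskerLeft E
  obtain ⟨z', hz'⟩ := hc.lift r hr z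
  have h1 : stepL E (cobD E (E ⊗ X) s) ≫ (E ◁ (E ◁ V3.cobMap E g s)) =
      (E ◁ V3.cobMap E g s) ≫ stepL E (cobD E Z s) :=
    cobMap_comm E g (s + 1)
  have h2 : stepL E (cobD E X s) ≫ (E ◁ (E ◁ V3.cobMap E (unitL E X) s)) =
      (E ◁ V3.cobMap E (unitL E X) s) ≫ stepL E (cobD E (E ⊗ X) s) :=
    cobMap_comm E (unitL E X) (s + 1)
  have h3 : stepL E (stepL E (cobD E X s)) ≫
      (E ◁ (E ◁ (E ◁ V3.cobMap E (unitL E X) s))) =
      (E ◁ (E ◁ V3.cobMap E (unitL E X) s)) ≫ stepL E (stepL E (cobD E (E ⊗ X) s)) :=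
    cobMap_comm E (unitL E X) (s + 2)
  obtain ⟨u, hu⟩ := hcc.exact (z' ≫ stepL E (cobD E (E ⊗ X) s)) (by
    rw [Category.assoc, h1, reassoc_of% hz', hz])
  have hu0 : u ≫ stepL E (stepL E (cobD E X s)) = 0 := by
    have h4 : (u ≫ stepL E (stepL E (cobD E X s))) ≫
        (E ◁ (E ◁ (E ◁ V3.cobMap E (unitL E X) s))) = 0 := by
      rw [Category.assoc, h3, reassoc_of% hu]
      have h5 : stepL E (cobD E (E ⊗ X) s) ≫ stepL E (stepL E (cobD E (E ⊗ X) s)) = 0 :=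
        cobD_comp E (E ⊗ X) (s + 1)
      rw [h5, comp_zero]
    have h6 : (E ◁ (E ◁ (E ◁ V3.cobMap E (unitL E X) s))) ≫ (E ◁ (E ◁ r)) = 𝟙 _ := by
      rw [← MonoidalCategory.whiskerLeft_comp, ← MonoidalCategory.whiskerLeft_comp, hr,
        MonoidalCategory.whiskerLeft_id, MonoidalCategory.whiskerLeft_id]
    rw [← Category.comp_id (u ≫ _), ← h6, ← Category.assoc, h4, zero_comp]
  obtain ⟨v, hv'⟩ : ∃ v : W ⟶ E ⊗ tpow E X s, v ≫ stepL E (cobD E X s) = u := h u hu0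
  obtain ⟨w, hw⟩ := cob_exact_tensor E X s
    (z' - v ≫ (E ◁ V3.cobMap E (unitL E X) s)) (by
      rw [Preadditive.sub_comp, Category.assoc, ← h2, reassoc_of% hv', hu, sub_self])
  refine ⟨w, ?_⟩
  rw [Category.assoc, ← cobMap_comm, reassoc_of% hw, Preadditive.sub_comp, Category.assoc,
    hc.comp, comp_zero, sub_zero, hz']

lemma unitL_shift (E X : D) [MonObj E] :
    unitL E (X⟦(1 : ℤ)⟧) ≫ (TensorTriangulated.shiftIso E X).hom = (unitL E X)⟦(1 : ℤ)⟧' := by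
  have h2 := TensorTriangulated.shiftIso_natural_left η[E] X
  have h3 : (λ_ (X⟦(1 : ℤ)⟧)).inv ≫ (TensorTriangulated.shiftIso (𝟙_ D) X).hom =
      ((λ_ X).inv)⟦(1 : ℤ)⟧' := by
    rw [Iso.inv_comp_eq, ← TensorTriangulated.shiftIso_unit X, Category.assoc,
      ← Functor.map_comp, Iso.hom_inv_id, CategoryTheory.Functor.map_id, Category.comp_id]
  rw [unitL, Category.assoc, h2, reassoc_of% h3, ← Functor.map_comp]
  rfl

/-- The cobar complex of `X⟦1⟧` is the shift of the cobar complex of `X`. -/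
def tauL (E X : D) : (s : ℕ) → (tpow E (X⟦(1 : ℤ)⟧) s ≅ (tpow E X s)⟦(1 : ℤ)⟧)
  | 0 => Iso.refl _
  | s + 1 => whiskerLeftIso E (tauL E X s) ≪≫ TensorTriangulated.shiftIso E (tpow E X s)

lemma stepL_tau (E : D) [MonObj E] {A A' : D} (t : A' ⟶ A⟦(1 : ℤ)⟧)
    (d : A ⟶ E ⊗ A) (d' : A' ⟶ E ⊗ A')
    (h : d' ≫ (E ◁ t) ≫ (TensorTriangulated.shiftIso E A).hom = t ≫ d⟦(1 : ℤ)⟧') :
    stepL E d' ≫ (E ◁ ((E ◁ t) ≫ (TensorTriangulated.shiftIso E A).hom)) ≫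
        (TensorTriangulated.shiftIso E (E ⊗ A)).hom =
      ((E ◁ t) ≫ (TensorTriangulated.shiftIso E A).hom) ≫ (stepL E d)⟦(1 : ℤ)⟧' := by
  have h1 : (stepL E d)⟦(1 : ℤ)⟧' = (unitL E (E ⊗ A))⟦(1 : ℤ)⟧' - (E ◁ d)⟦(1 : ℤ)⟧' :=
    Functor.map_sub _
  rw [h1, stepL, Preadditive.sub_comp, Preadditive.comp_sub, unitL_naturality_assoc,
    unitL_shift, ← MonoidalCategory.whiskerLeft_comp_assoc, h,
    MonoidalCategory.whiskerLeft_comp_assoc, TensorTriangulated.shiftIso_natural_right,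
    Category.assoc, Category.assoc]

lemma tauL_comm (E X : D) [MonObj E] (s : ℕ) :
    cobD E (X⟦(1 : ℤ)⟧) s ≫ (E ◁ (tauL E X s).hom) ≫
        (TensorTriangulated.shiftIso E (tpow E X s)).hom =
      (tauL E X s).hom ≫ (cobD E X s)⟦(1 : ℤ)⟧' := by
  induction s with
  | zero =>
    change unitL E (X⟦(1 : ℤ)⟧) ≫ (E ◁ 𝟙 (X⟦(1 : ℤ)⟧)) ≫
      (TensorTriangulated.shiftIso E X).hom = 𝟙 _ ≫ (unitL E X)⟦(1 : ℤ)⟧'
    rw [MonoidalCategory.whiskerLeft_id, Category.id_comp, Category.id_comp, unitL_shift]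
  | succ s ih => exact stepL_tau E _ _ _ ih

lemma CobExact.unshift {E X : D} [MonObj E] {s : ℕ} {W : D}
    (h : CobExact E (X⟦(1 : ℤ)⟧) (W⟦(1 : ℤ)⟧) s) : CobExact E X W s := by
  intro g hg
  have h1 := tauL_comm E X s
  have h2 := stepL_tau E _ _ _ h1
  let t' : E ⊗ tpow E (X⟦(1 : ℤ)⟧) s ≅ (E ⊗ tpow E X s)⟦(1 : ℤ)⟧ :=
    whiskerLeftIso E (tauL E X s) ≪≫ TensorTriangulated.shiftIso E (tpow E X s)
  let t'' : E ⊗ (E ⊗ tpow E (X⟦(1 : ℤ)⟧) s) ≅ (E ⊗ (E ⊗ tpow E X s))⟦(1 : ℤ)⟧ :=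
    whiskerLeftIso E t' ≪≫ TensorTriangulated.shiftIso E (E ⊗ tpow E X s)
  have h1' : cobD E (X⟦(1 : ℤ)⟧) s ≫ t'.hom = (tauL E X s).hom ≫ (cobD E X s)⟦(1 : ℤ)⟧' := h1
  have h2' : stepL E (cobD E (X⟦(1 : ℤ)⟧) s) ≫ t''.hom =
      t'.hom ≫ (stepL E (cobD E X s))⟦(1 : ℤ)⟧' := h2
  obtain ⟨w, hw⟩ := h (g⟦(1 : ℤ)⟧' ≫ t'.inv) (by
    change (g⟦(1 : ℤ)⟧' ≫ t'.inv) ≫ stepL E (cobD E (X⟦(1 : ℤ)⟧) s) = 0
    rw [← cancel_mono t''.hom, Category.assoc, Category.assoc, h2', Iso.inv_hom_id_assoc,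
      ← Functor.map_comp]
    have hg' : g ≫ stepL E (cobD E X s) = 0 := hg
    rw [hg', Functor.map_zero, zero_comp])
  obtain ⟨v, hv⟩ := (shiftFunctor D (1 : ℤ)).map_surjective (w ≫ (tauL E X s).hom)
  refine ⟨v, (shiftFunctor D (1 : ℤ)).map_injective ?_⟩
  rw [Functor.map_comp, hv, Category.assoc, ← h1', reassoc_of% hw, Iso.inv_hom_id,
    Category.comp_id]

/-- The map `X ⟶ X ⊗ E` given by the unit of `E`. -/
def unitR (E X : D) [MonObj E] : X ⟶ X ⊗ E := (ρ_ X).inv ≫ (X ◁ η[E])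

lemma unitL_braiding (E X : D) [MonObj E] : unitL E X ≫ (β_ E X).hom = unitR E X := by
  rw [unitL, unitR, Category.assoc, BraidedCategory.braiding_naturality_left, ← Category.assoc]
  congr 1
  rw [Iso.inv_comp_eq]
  exact braiding_tensorUnit_left X

/-- The connecting map `X ⊗ E ⟶ (X ⊗ F)⟦1⟧`. -/
def connR {E F : D} (X : D) (δ : E ⟶ F⟦(1 : ℤ)⟧) : X ⊗ E ⟶ (X ⊗ F)⟦(1 : ℤ)⟧ :=
  (X ◁ δ) ≫ (TensorTriangulated.shiftIso X F).hom

/-- The connecting map `E ⊗ X ⟶ (X ⊗ F)⟦1⟧`. -/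
def connL {E F : D} (X : D) (δ : E ⟶ F⟦(1 : ℤ)⟧) : E ⊗ X ⟶ (X ⊗ F)⟦(1 : ℤ)⟧ :=
  (β_ E X).hom ≫ connR X δ

variable {E F : D} [MonObj E] {i : F ⟶ 𝟙_ D} {δ : E ⟶ F⟦(1 : ℤ)⟧}

lemma consec_unitL (hF : Triangle.mk i η[E] δ ∈ distTriang D) (X : D) :
    Consec (unitL E X) (connL X δ) := by
  have h1 := rot_of_distTriang _ (TensorTriangulated.distinguished X _ hF)
  refine ⟨(-(X ◁ i)⟦(1 : ℤ)⟧') ≫ ((ρ_ X).hom)⟦(1 : ℤ)⟧', ?_⟩
  refine isomorphic_distinguished _ h1 _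
    (Triangle.isoMk _ _ (ρ_ X).symm (β_ E X) (Iso.refl _) ?_ ?_ ?_)
  · change unitL E X ≫ (β_ E X).hom = (ρ_ X).inv ≫ (X ◁ η[E])
    exact unitL_braiding E X
  · change connL X δ ≫ 𝟙 _ = (β_ E X).hom ≫ ((X ◁ δ) ≫ (TensorTriangulated.shiftIso X F).hom)
    rw [Category.comp_id]
    rfl
  · change ((-(X ◁ i)⟦(1 : ℤ)⟧') ≫ ((ρ_ X).hom)⟦(1 : ℤ)⟧') ≫ ((ρ_ X).inv)⟦(1 : ℤ)⟧' =
      𝟙 _ ≫ (-(X ◁ i)⟦(1 : ℤ)⟧')
    rw [Category.assoc, ← Functor.map_comp, Iso.hom_inv_id, CategoryTheory.Functor.map_id,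
      Category.comp_id, Category.id_comp]

lemma cobExact_tensor (hF : Triangle.mk i η[E] δ ∈ distTriang D) {X : D} {s : ℕ}
    (h : ∀ t : ℤ, CobExact E X ((𝟙_ D)⟦t⟧) (s + 1)) (t : ℤ) :
    CobExact E (X ⊗ F) ((𝟙_ D)⟦t⟧) s := by
  apply CobExact.unshift
  intro z hz
  obtain ⟨w, hw⟩ := dimension_shiftL E (connL X δ) (consec_unitL hF X) s
    ((h (t + 1)).of_iso ((shiftFunctorAdd D t 1).app (𝟙_ D)).symm) z hz
  exact ⟨w ≫ cobMap E (connL X δ) s, hw⟩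

lemma cobExact_tensorPow (hF : Triangle.mk i η[E] δ ∈ distTriang D) (a s : ℕ)
    (h : ∀ t : ℤ, CobExact E (𝟙_ D) ((𝟙_ D)⟦t⟧) (s + a)) (t : ℤ) :
    CobExact E (H603.tensorPow F a) ((𝟙_ D)⟦t⟧) s := by
  induction a generalizing s t with
  | zero => exact h t
  | succ a ih =>
    refine cobExact_tensor hF (X := H603.tensorPow F a) (fun t' => ih (s + 1) (fun t'' => ?_) t') t
    have e : s + 1 + a = s + (a + 1) := by ring
    rw [e]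
    exact h t''

lemma adams_key (hF : Triangle.mk i η[E] δ ∈ distTriang D) {t : ℤ} (X : D)
    (hX : ∀ t : ℤ, CobExact E X ((𝟙_ D)⟦t⟧) 1) {W' : D} (g : W' ⟶ (X ⊗ F) ⊗ E)
    (hg : g ≫ connR (X ⊗ F) δ ≫ (unitR E ((X ⊗ F) ⊗ F))⟦(1 : ℤ)⟧' = 0)
    (e : (𝟙_ D)⟦t⟧ ≅ W'⟦(1 : ℤ)⟧) :
    ∃ w : (𝟙_ D)⟦t⟧ ⟶ X ⊗ E, w ≫ connR X δ ≫ (unitR E (X ⊗ F))⟦(1 : ℤ)⟧' =
      e.hom ≫ g⟦(1 : ℤ)⟧' := by
  let g' : W' ⟶ E ⊗ (X ⊗ F) := g ≫ (β_ E (X ⊗ F)).inv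
  have hg' : g' ≫ connL (X ⊗ F) δ ≫ (unitL E ((X ⊗ F) ⊗ F))⟦(1 : ℤ)⟧' = 0 := by
    rw [← cancel_mono (((β_ E ((X ⊗ F) ⊗ F)).hom)⟦(1 : ℤ)⟧'), zero_comp]
    simp only [Category.assoc, g', connL]
    rw [← Functor.map_comp, unitL_braiding, Iso.inv_hom_id_assoc, hg]
  have hcZ := consec_unitL hF (X ⊗ F)
  have hc := hcZ.whiskerLeft E
  have h1 : stepL E (unitL E (X ⊗ F)) ≫ (E ◁ connL (X ⊗ F) δ) ≫
      (TensorTriangulated.shiftIso E ((X ⊗ F) ⊗ F)).hom =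
      connL (X ⊗ F) δ ≫ (unitL E ((X ⊗ F) ⊗ F))⟦(1 : ℤ)⟧' := by
    rw [stepL, Preadditive.sub_comp, unitL_naturality_assoc, unitL_shift]
    have h2 : (E ◁ unitL E (X ⊗ F)) ≫ (E ◁ connL (X ⊗ F) δ) = 0 := hc.comp
    rw [reassoc_of% h2, zero_comp, sub_zero]
  have h3 : g' ≫ stepL E (unitL E (X ⊗ F)) = 0 := by
    obtain ⟨u, hu⟩ := hc.exact (g' ≫ stepL E (unitL E (X ⊗ F))) (by
      rw [← cancel_mono (TensorTriangulated.shiftIso E ((X ⊗ F) ⊗ F)).hom, Category.assoc,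
        Category.assoc, h1, hg', zero_comp])
    have h4 : u = 0 := by
      rw [← Category.comp_id u, ← whisker_unitL_mulL E (X ⊗ F), reassoc_of% hu, stepL,
        Preadditive.sub_comp, unitL_mulL, whisker_unitL_mulL, sub_self, comp_zero]
    rw [← hu, h4, zero_comp]
  have h5 := stepL_tau E (𝟙 ((X ⊗ F)⟦(1 : ℤ)⟧)) (unitL E (X ⊗ F))
    (unitL E ((X ⊗ F)⟦(1 : ℤ)⟧)) (by
      rw [MonoidalCategory.whiskerLeft_id, Category.id_comp, Category.id_comp, unitL_shift])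
  rw [MonoidalCategory.whiskerLeft_id, Category.id_comp] at h5
  obtain ⟨w, hw'⟩ : ∃ w : (𝟙_ D)⟦t⟧ ⟶ E ⊗ X,
      (w ≫ connL X δ) ≫ unitL E ((X ⊗ F)⟦(1 : ℤ)⟧) =
        e.hom ≫ g'⟦(1 : ℤ)⟧' ≫ (TensorTriangulated.shiftIso E (X ⊗ F)).inv :=
    dimension_shiftL E (connL X δ) (consec_unitL hF X) 0 (hX t)
    ((e.hom ≫ g'⟦(1 : ℤ)⟧' ≫ (TensorTriangulated.shiftIso E (X ⊗ F)).inv :
      (𝟙_ D)⟦t⟧ ⟶ E ⊗ (X ⊗ F)⟦(1 : ℤ)⟧)) (by
      change (e.hom ≫ g'⟦(1 : ℤ)⟧' ≫ (TensorTriangulated.shiftIso E (X ⊗ F)).inv) ≫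
        stepL E (unitL E ((X ⊗ F)⟦(1 : ℤ)⟧)) = 0
      rw [← cancel_mono ((E ◁ (TensorTriangulated.shiftIso E (X ⊗ F)).hom) ≫
        (TensorTriangulated.shiftIso E (E ⊗ (X ⊗ F))).hom)]
      simp only [Category.assoc]
      rw [h5, Iso.inv_hom_id_assoc, ← Functor.map_comp, h3, Functor.map_zero, comp_zero,
        zero_comp])
  have h6 : w ≫ connL X δ ≫ (unitL E (X ⊗ F))⟦(1 : ℤ)⟧' = e.hom ≫ g'⟦(1 : ℤ)⟧' := by
    rw [← unitL_shift, ← Category.assoc, ← Category.assoc, hw']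
    simp only [Category.assoc, Iso.inv_hom_id, Category.comp_id]
  refine ⟨w ≫ (β_ E X).hom, ?_⟩
  have h7 : (unitR E (X ⊗ F))⟦(1 : ℤ)⟧' =
      (unitL E (X ⊗ F))⟦(1 : ℤ)⟧' ≫ ((β_ E (X ⊗ F)).hom)⟦(1 : ℤ)⟧' := by
    rw [← Functor.map_comp, unitL_braiding]
  have h8 : g⟦(1 : ℤ)⟧' = g'⟦(1 : ℤ)⟧' ≫ ((β_ E (X ⊗ F)).hom)⟦(1 : ℤ)⟧' := by
    rw [← Functor.map_comp, Category.assoc, Iso.inv_hom_id, Category.comp_id]
  rw [h7, h8, ← Category.assoc e.hom, ← h6]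
  simp only [connL, Category.assoc]

/-- If the cohomology of the cobar complex `π_* (E^{⊗(s+1)})` vanishes in all degrees `> m`, then
`E₂^{s,*} = 0` for all `s > m` in the `E`-based Adams spectral sequence of the unit object. -/
theorem adamsE₂Vanishes_of_cobExact
    (hF : Triangle.mk i η[E] δ ∈ distTriang D) (m : ℕ)
    (h : ∀ s, m < s → ∀ t : ℤ, CobExact E (𝟙_ D) ((𝟙_ D)⟦t⟧) s) (s : ℕ) (hs : m ≤ s) :
    letI := toH603 D
    H603.AdamsE₂Vanishes δ s := by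
  let _ := toH603 D
  intro t y hy
  -- the assumption in degree one for `F^{⊗ s}`
  have hX : ∀ t : ℤ, CobExact E (H603.tensorPow F s) ((𝟙_ D)⟦t⟧) 1 :=
    cobExact_tensorPow hF s 1 (fun t y hy => h (1 + s) (by omega) t y hy)
  obtain ⟨g, hg⟩ := (shiftFunctor D (1 : ℤ)).map_surjective
    (((shiftFunctorAdd' D (t - 1) 1 t (by ring)).app (𝟙_ D)).inv ≫ y)
  obtain ⟨w, hw⟩ := adams_key hF (t := t) (H603.tensorPow F s) hX (W' := (𝟙_ D)⟦t - 1⟧) g (by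
    apply (shiftFunctor D (1 : ℤ)).map_injective
    refine (Functor.map_comp (shiftFunctor D (1 : ℤ)) g
      (H603.adamsDifferential δ (s + 1))).trans ?_
    rw [hg, Category.assoc, hy, comp_zero, Functor.map_zero]
    rfl) ((shiftFunctorAdd' D (t - 1) 1 t (by ring)).app (𝟙_ D))
  refine ⟨w, ?_⟩
  refine hw.trans ((congrArg (fun f => _ ≫ f) hg).trans ?_)
  exact Iso.hom_inv_id_assoc _ y

end Triangulated

end Vale.Agent.P251.V3
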