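import Vale.Agent.P251.H240.Spectra
import Mathlib.Analysis.Normed.Lp.lpSpace
import Mathlib.Logic.Equiv.Fin.Rotate
import Mathlib.SetTheory.Cardinal.Finite
import Mathlib.Topology.Homotopy.Basic

/-!
# Symmetric ring spectra and Morava K-theory

Symmetric ring spectra of topological spaces in explicit form, weak homotopy equivalences, the
classifying space `B(Z/p)` as a quotient of the unit sphere of `ℓ²`, and the predicate saying that
a symmetric ring spectrum is a Morava K-theory of height `n ≥ 1` at the prime `p`.
-/

open CategoryTheory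

namespace Vale.Agent.P251.Stable

open PSpace

/-- A pointed map, with a changed base point: the map `(X, x) → (Y, f x)`. -/
def PSpace.rebase {X Y : Type} [TopologicalSpace X] [TopologicalSpace Y] (f : C(X, Y)) (x : X) :
    (PSpace.mk X x ⟶ PSpace.mk Y (f x)) :=
  PSpace.Hom.mk f rfl

/-- Weak homotopy equivalences: for every base point `x` and every `m ≥ 0` the induced map
`Ω^m(X, x) → Ω^m(Y, f x)` is a bijection on path components, that is
`π_m(X, x) → π_m(Y, f x)` is bijective. -/
def IsWeakEquiv {X Y : Type} [TopologicalSpace X] [TopologicalSpace Y] (f : C(X, Y)) : Prop :=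
  ∀ (x : X) (m : ℕ),
    (∀ a b : ((loops m).obj (PSpace.mk X x)).carrier,
      Joined (Hom.app ((loops m).map (PSpace.rebase f x)) a)
        (Hom.app ((loops m).map (PSpace.rebase f x)) b) → Joined a b) ∧
    ∀ b : ((loops m).obj (PSpace.mk Y (f x))).carrier,
      ∃ a, Joined (Hom.app ((loops m).map (PSpace.rebase f x)) a) b

/-- The block sum of two permutations, a permutation of `Fin (m + n)`. -/
def blockSum {m n : ℕ} (s : Equiv.Perm (Fin m)) (t : Equiv.Perm (Fin n)) :
    Equiv.Perm (Fin (m + n)) :=
  finSumFinEquiv.permCongr (Equiv.Perm.sumCongr s t)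

/-- A symmetric ring spectrum: pointed spaces `R_n` with a left action of the symmetric group
`Σ_n`, multiplication maps `R_m ∧ R_n → R_{m+n}` and unit maps `S^0 → R_0` and `S^1 → R_1` such
that the multiplication is associative, unital and `Σ_m × Σ_n`-equivariant and the unit is
central. Equalities between points of `R_k` and `R_l` with `k = l` are stated as equalities of
pairs (degree, point). -/
structure SymRing where
  /-- the spaces -/
  space : ℕ → PSpace
  /-- the action of the symmetric groups -/
  act : ∀ n, Equiv.Perm (Fin n) → (space n ⟶ space n)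
  act_one : ∀ n, act n 1 = 𝟙 (space n)
  act_mul : ∀ n (s t : Equiv.Perm (Fin n)), act n (s * t) = act n t ≫ act n s
  /-- the multiplication -/
  mul : ∀ m n, C((space m).carrier × (space n).carrier, (space (m + n)).carrier)
  mul_pt : ∀ m n x, mul m n (x, (space n).pt) = (space (m + n)).pt
  pt_mul : ∀ m n y, mul m n ((space m).pt, y) = (space (m + n)).pt
  /-- the unit `S^0 → R_0` -/
  one : (space 0).carrier
  /-- the unit `S^1 → R_1` -/
  iota : (Om.obj (space 1)).carrier
  mul_one : ∀ m x, mul m 0 (x, one) = x
  one_mul : ∀ n x, (⟨0 + n, mul 0 n (one, x)⟩ : Σ k, (space k).carrier) = ⟨n, x⟩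
  mul_assoc : ∀ l m n x y z,
    (⟨l + m + n, mul (l + m) n (mul l m (x, y), z)⟩ : Σ k, (space k).carrier) =
      ⟨l + (m + n), mul l (m + n) (x, mul m n (y, z))⟩
  mul_act : ∀ m n (s : Equiv.Perm (Fin m)) (t : Equiv.Perm (Fin n)) x y,
    mul m n (Hom.app (act m s) x, Hom.app (act n t) y) =
      Hom.app (act (m + n) (blockSum s t)) (mul m n (x, y))
  central : ∀ n (t : UnitAddCircle) x,
    (⟨1 + n, mul 1 n (iota.1 t, x)⟩ : Σ k, (space k).carrier) =
      ⟨n + 1, Hom.app (act (n + 1) (finRotate (n + 1))) (mul n 1 (x, iota.1 t))⟩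

namespace SymRing

/-- The sequential spectrum of a symmetric ring spectrum, with structure maps
`x ↦ (t ↦ x · iota(t))`. -/
def toSpectrum (R : SymRing) : Spectrum where
  space := R.space
  str n :=
    { toMap :=
        { toFun := fun x => ⟨⟨fun t => R.mul n 1 (x, R.iota.1 t), by fun_prop⟩, by
            change R.mul n 1 (x, R.iota.1 0) = _
            rw [R.iota.2]; exact R.mul_pt n 1 x⟩
          continuous_toFun := by
            refine Continuous.subtype_mk ?_ _
            refine ContinuousMap.continuous_of_continuous_uncurry _ ?_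
            change Continuous fun y : (R.space n).carrier × UnitAddCircle =>
              R.mul n 1 (y.1, R.iota.1 y.2)
            fun_prop }
      map_pt := by
        apply Subtype.ext
        ext t
        exact R.pt_mul n 1 _ }

/-- Left multiplication by a point of `R_d`, a map `R_m → R_{d+m}`. -/
def mulLeft (R : SymRing) {d : ℕ} (w : (R.space d).carrier) (m : ℕ) :
    C((R.space m).carrier, (R.space (d + m)).carrier) :=
  (R.mul d m).comp ⟨fun x => (w, x), by fun_prop⟩

end SymRing

/-- The Hilbert space `ℓ²` of square summable sequences of complex numbers. -/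
abbrev ell2 : Type := lp (fun _ : ℕ => ℂ) 2

/-- The classifying space of the cyclic group of order `p`: the quotient of the (contractible)
unit sphere of `ℓ²` by the free action of the group of `p`-th roots of unity. -/
def BCyclic (p : ℕ) : Type :=
  Quot fun x y : Metric.sphere (0 : ell2) 1 => ∃ u : ℂ, u ^ p = 1 ∧ (y : ell2) = u • (x : ell2)

instance (p : ℕ) : TopologicalSpace (BCyclic p) :=
  inferInstanceAs (TopologicalSpace (Quot _))

/-- The symmetric ring spectrum `K` is a Morava K-theory of height `n ≥ 1` at the prime `p`: it is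
an `Ω`-spectrum; with `d = 2 (p^n - 1)`, the group `π_{-m} K = π_0(K_m)` has `p` elements if `d`
divides `m` and is trivial otherwise; some `w ∈ π_{-d} K` is a unit; and
`K^0(B(Z/p)) = [B(Z/p), K_0]` has `p²` elements. (The last condition says that the height is `n`
and not a proper multiple of `n`.) -/
def IsMoravaK (p n : ℕ) (K : SymRing) : Prop :=
  (∀ m, IsWeakEquiv (PSpace.Hom.toMap (K.toSpectrum.str m))) ∧
  (∀ m, Nat.card (ZerothHomotopy (K.space m).carrier) = if 2 * (p ^ n - 1) ∣ m then p else 1) ∧
  (∃ w : (K.space (2 * (p ^ n - 1))).carrier, ∀ m, IsWeakEquiv (K.mulLeft w m)) ∧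
  Nat.card (Quot (ContinuousMap.Homotopic (X := BCyclic p) (Y := (K.space 0).carrier))) = p ^ 2

end Vale.Agent.P251.Stable
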